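import Crest.Agent.Helper64.S0359.Defs

/-!
# S0359 squad, package D (`L^p` plumbing), exact Blueprint forms

* `memLp_count` (D1): every real function on a finite discrete space is in `L^p` of the
  counting measure;
* `norm_toLp_count_rpow` (D2): `‖toLp f‖ ^ p.toReal = energy p.toReal f` for the counting measure;
* `norm_piLp_sub_rpow` (D3): `‖y - y'‖ ^ p.toReal = energy p.toReal (y - y')` in `ℓ_p^d`.
-/

set_option autoImplicit false

open MeasureTheory
open scoped ENNReal

namespace Crest.Agent.Helper41.S0359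

open Crest.Agent.Helper64.S0359

/-- D1: every function on a finite discrete space is in `L^p` of the counting measure. -/
theorem memLp_count {ι : Type*} [Fintype ι] [MeasurableSpace ι] [MeasurableSingletonClass ι]
    (p : ℝ≥0∞) (f : ι → ℝ) : MemLp f p (Measure.count : Measure ι) :=
  MemLp.of_discrete

/-- D2: the `L^p` norm for the counting measure on a finite type. -/
theorem norm_toLp_count_rpow {ι : Type*} [Fintype ι] [MeasurableSpace ι]
    [MeasurableSingletonClass ι] (p : ℝ≥0∞) (hp0 : p ≠ 0) (hp : p ≠ ⊤) (f : ι → ℝ)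
    (hf : MemLp f p (Measure.count : Measure ι)) :
    ‖hf.toLp f‖ ^ p.toReal = energy p.toReal f := by
  have hq : 0 < p.toReal := ENNReal.toReal_pos hp0 hp
  have hnorm : ‖hf.toLp f‖ = (∑ a, |f a| ^ p.toReal) ^ (1 / p.toReal) := by
    rw [Lp.norm_toLp, eLpNorm_eq_lintegral_rpow_enorm_toReal hp0 hp, lintegral_count,
      tsum_fintype, ← ENNReal.toReal_rpow, ENNReal.toReal_sum]
    · congr 1
      refine Finset.sum_congr rfl fun a _ => ?_
      rw [← ENNReal.toReal_rpow]
      simp
    · intro a _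
      exact ENNReal.rpow_ne_top_of_nonneg hq.le (by simp)
  rw [hnorm, ← Real.rpow_mul, one_div, inv_mul_cancel₀ hq.ne', Real.rpow_one]
  · rfl
  · exact Finset.sum_nonneg fun a _ => Real.rpow_nonneg (abs_nonneg _) _

/-- D3: the norm of `ℓ_p^d`. -/
theorem norm_piLp_sub_rpow (p : ℝ≥0∞) (hp0 : p ≠ 0) (hp : p ≠ ⊤) (d : ℕ)
    (y y' : PiLp p (fun _ : Fin d => ℝ)) :
    ‖y - y'‖ ^ p.toReal = energy p.toReal (fun t => y t - y' t) := by
  have hq : 0 < p.toReal := ENNReal.toReal_pos hp0 hp
  rw [PiLp.norm_eq_sum hq, ← Real.rpow_mul, one_div, inv_mul_cancel₀ hq.ne', Real.rpow_one]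
  · rfl
  · exact Finset.sum_nonneg fun t _ => Real.rpow_nonneg (norm_nonneg _) _

end Crest.Agent.Helper41.S0359
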