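import Mathlib

/-!
# S0359, leaf T: transfer of the embedding hypothesis to finite `PiLp` sources

The hypothesis of S0359 speaks about `n` distinct points of an arbitrary `Lp ℝ p μ`.
Here we specialise it to the counting measure on a finite type `ι` and transport it along
`f ↦ MemLp.toLp f`, which is distance preserving from `PiLp p (fun _ : ι => ℝ)`.
After this leaf, no measure theory is needed any more.
-/

set_option autoImplicit false
open MeasureTheory
open scoped ENNReal

namespace Crest.Agent.Helper41.S0359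

/-- The `Lp` norm w.r.t. the counting measure on a finite type of a function, as a finite
sum. -/
theorem norm_toLp_count {ι : Type} [Fintype ι] [MeasurableSpace ι] [MeasurableSingletonClass ι]
    (p : ℝ≥0∞) [Fact (1 ≤ p)] (hptop : p ≠ ⊤) (f : ι → ℝ)
    (hf : MemLp f p (Measure.count : Measure ι)) :
    ‖hf.toLp f‖ = (∑ a, |f a| ^ p.toReal) ^ (1 / p.toReal) := by
  have hp0 : p ≠ 0 := (lt_of_lt_of_le zero_lt_one (Fact.out : (1 : ℝ≥0∞) ≤ p)).ne'
  have hq : 0 < p.toReal := ENNReal.toReal_pos hp0 hptop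
  rw [Lp.norm_toLp, eLpNorm_eq_lintegral_rpow_enorm_toReal hp0 hptop, lintegral_count,
    tsum_fintype, ← ENNReal.toReal_rpow, ENNReal.toReal_sum]
  · congr 1
    refine Finset.sum_congr rfl fun a _ => ?_
    rw [← ENNReal.toReal_rpow]
    simp
  · intro a _
    exact ENNReal.rpow_ne_top_of_nonneg hq.le (by simp)

/-- **Leaf T.** The hypothesis of S0359 applies to `n` distinct points of any finite
`PiLp p (fun _ : ι => ℝ)`. -/
theorem hd_transfer (p : ℝ≥0∞) [Fact (1 ≤ p)] (hptop : p ≠ ⊤) (n d : ℕ)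
    (hd : ∀ (α : Type) [MeasurableSpace α] (μ : Measure α) (x : Fin n → Lp ℝ p μ),
      Function.Injective x →
      ∃ (y : Fin n → PiLp p (fun _ : Fin d => ℝ)) (s : ℝ), 0 < s ∧
        ∀ i j, ‖y i - y j‖ = s * ‖x i - x j‖)
    (ι : Type) [Fintype ι] (x : Fin n → PiLp p (fun _ : ι => ℝ))
    (hx : Function.Injective x) :
    ∃ (y : Fin n → PiLp p (fun _ : Fin d => ℝ)) (s : ℝ), 0 < s ∧
      ∀ i j, ‖y i - y j‖ = s * ‖x i - x j‖ := by
  classical
  let _ : MeasurableSpace ι := ⊤
  have hp0 : p ≠ 0 := (lt_of_lt_of_le zero_lt_one (Fact.out : (1 : ℝ≥0∞) ≤ p)).ne'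
  have hq : 0 < p.toReal := ENNReal.toReal_pos hp0 hptop
  have hmem : ∀ f : ι → ℝ, MemLp f p (Measure.count : Measure ι) := fun f => MemLp.of_discrete
  let Φ : PiLp p (fun _ : ι => ℝ) → Lp ℝ p (Measure.count : Measure ι) :=
    fun f => (hmem (WithLp.ofLp f)).toLp _
  have hΦ : ∀ f g : PiLp p (fun _ : ι => ℝ), ‖Φ f - Φ g‖ = ‖f - g‖ := by
    intro f g
    have h1 : Φ f - Φ g = (hmem (WithLp.ofLp f - WithLp.ofLp g)).toLp _ :=
      (MemLp.toLp_sub (hmem (WithLp.ofLp f)) (hmem (WithLp.ofLp g))).symm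
    rw [h1, norm_toLp_count p hptop, PiLp.norm_eq_sum hq]
    rfl
  have hinj : Function.Injective fun i => Φ (x i) := by
    intro i j hij
    apply hx
    have h0 : ‖x i - x j‖ = 0 := by
      rw [← hΦ]
      simp only at hij
      rw [hij, sub_self, norm_zero]
    exact sub_eq_zero.mp (norm_eq_zero.mp h0)
  obtain ⟨y, s, hs, hy⟩ := hd ι Measure.count (fun i => Φ (x i)) hinj
  exact ⟨y, s, hs, fun i j => by rw [hy i j, hΦ]⟩

end Crest.Agent.Helper41.S0359
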